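import Vale.Agent.Lib.P154Neg.A4.L0
import Vale.Agent.Lib.P154Neg.A4.L1
import Vale.Agent.Lib.P154Neg.A4.L2
import Vale.Agent.Lib.P154Neg.A4.L3
import Vale.Agent.Lib.P154Neg.A4.L4
import Vale.Agent.Lib.P154Neg.A4.L5
import Vale.Agent.Lib.P154Neg.A4.L6
import Vale.Agent.Lib.P154Neg.A4.L7
import Vale.Agent.Lib.P154Neg.A4.L8
import Vale.Agent.Lib.P154Neg.A4.L9
import Vale.Agent.Lib.P154Neg.A4.L10
import Vale.Agent.Lib.P154Neg.A4.L11
import Vale.Agent.Lib.P154Neg.A4.L12
import Vale.Agent.Lib.P154Neg.A4.L13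
import Vale.Agent.Lib.P154Neg.A4.L14
import Vale.Agent.Lib.P154Neg.A4.L15
import Vale.Agent.Lib.P154Neg.A4.L16
import Vale.Agent.Lib.P154Neg.A4.L17
import Vale.Agent.Lib.P154Neg.A4.L18
import Vale.Agent.Lib.P154Neg.A4.L19
import Vale.Agent.Lib.P154Neg.A4.L20
import Vale.Agent.Lib.P154Neg.A4.L21
import Vale.Agent.Lib.P154Neg.A4.L22
import Vale.Agent.Lib.P154Neg.A4.L23
import Vale.Agent.Lib.P154Neg.A4.L24
import Vale.Agent.Lib.P154Neg.A4.L25
import Vale.Agent.Lib.P154Neg.A4.L26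
import Vale.Agent.Lib.P154Neg.A4.L27
import Vale.Agent.Lib.P154Neg.A4.L28
import Vale.Agent.Lib.P154Neg.A4.L29
import Vale.Agent.Lib.P154Neg.A4.L30
import Vale.Agent.Lib.P154Neg.A4.L31
import Vale.Agent.Lib.P154Neg.A4.L32
import Vale.Agent.Lib.P154Neg.A4.L33
import Vale.Agent.Lib.P154Neg.A4.L34
import Vale.Agent.Lib.P154Neg.A4.L35
import Vale.Agent.Lib.P154Neg.A4.L36
import Vale.Agent.Lib.P154Neg.A4.L37
import Vale.Agent.Lib.P154Neg.A4.L38
import Vale.Agent.Lib.P154Neg.A4.L39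
import Vale.Agent.Lib.P154Neg.A4.L40
import Vale.Agent.Lib.P154Neg.A4.L41
import Vale.Agent.Lib.P154Neg.A4.L42
import Vale.Agent.Lib.P154Neg.A4.L43
import Vale.Agent.Lib.P154Neg.A4.L44
import Vale.Agent.Lib.P154Neg.A4.L45
import Vale.Agent.Lib.P154Neg.A4.L46
import Vale.Agent.Lib.P154Neg.A4.L47
import Vale.Agent.Lib.P154Neg.A4.L48
import Vale.Agent.Lib.P154Neg.A4.L49
import Vale.Agent.Lib.P154Neg.A4.L50
import Vale.Agent.Lib.P154Neg.A4.L51
import Vale.Agent.Lib.P154Neg.A4.L52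
import Vale.Agent.Lib.P154Neg.A4.L53
import Vale.Agent.Lib.P154Neg.A4.L54
import Vale.Agent.Lib.P154Neg.A4.L55
import Vale.Agent.Lib.P154Neg.A4.L56
import Vale.Agent.Lib.P154Neg.A4.L57
import Vale.Agent.Lib.P154Neg.A4.L58
import Vale.Agent.Lib.P154Neg.A4.L59
import Vale.Agent.Lib.P154Neg.A4.L60
import Vale.Agent.Lib.P154Neg.A4.L61

/-!
# Nonreconstruction for a negative eigenvalue of absolute value at most `1/4`
-/

open Filter Topology

namespace Vale.Agent.Lib.P154Neg.A4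

open Vale.Agent.Lib.P154 Vale.Agent.Lib.P154GW Vale.Agent.Lib.P154K Tp

lemma hHP : HoldsOn Lq Rq (chamber 1 1) (chamberN 1 4) :=
  (HoldsOn.splitA (by decide) (HoldsOn.splitA (by decide) (HoldsOn.splitB (by decide) (HoldsOn.splitB (by decide) l0 l1) (HoldsOn.splitB (by decide) (HoldsOn.splitB (by decide) l30 (HoldsOn.splitA (by decide) l66 l67)) (HoldsOn.splitB (by decide) (HoldsOn.splitB (by decide) (HoldsOn.splitA (by decide) (HoldsOn.splitB (by decide) l36 l37) (HoldsOn.splitA (by decide) (HoldsOn.splitB (by decide) l72 l54) (HoldsOn.splitB (by decide) l73 (HoldsOn.splitB (by decide) l89 l90)))) l29) (HoldsOn.splitA (by decide) (HoldsOn.splitA (by decide) (HoldsOn.splitB (by decide) l47 l99) (HoldsOn.splitB (by decide) l48 l100)) (HoldsOn.splitA (by decide) l44 (HoldsOn.splitA (by decide) (HoldsOn.splitB (by decide) l83 (HoldsOn.splitB (by decide) l97 l98)) l60)))))) (HoldsOn.splitB (by decide) (HoldsOn.splitB (by decide) l2 l3) (HoldsOn.splitB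 (by decide) (HoldsOn.splitA (by decide) (HoldsOn.splitB (by decide) (HoldsOn.splitA (by decide) (HoldsOn.splitA (by decide) (HoldsOn.splitB (by decide) l45 (HoldsOn.splitB (by decide) l55 (HoldsOn.splitA (by decide) l111 l112))) (HoldsOn.splitB (by decide) l50 l51)) (HoldsOn.splitA (by decide) (HoldsOn.splitB (by decide) l49 (HoldsOn.splitB (by decide) l61 (HoldsOn.splitA (by decide) l79 l80))) (HoldsOn.splitA (by decide) (HoldsOn.splitB (by decide) l62 (HoldsOn.splitB (by decide) l77 (HoldsOn.splitB (by decide) l113 l114))) (HoldsOn.splitB (by decide) l93 l94)))) l27) (HoldsOn.splitB (by decide) (HoldsOn.splitA (by decide) (HoldsOn.splitA (by decide) (HoldsOn.splitB (by decide) l40 (HoldsOn.splitB (by decide) (HoldsOn.splitA (by decide) l121 l122) (HoldsOn.splitB (by decide) (HoldsOn.splitB (by decide) l109 l110) l84))) (HoldsOn.splitB (by decide) l64 l65)) (HoldsOn.splitA (by decide) (HoldsOn.splitB (by decide) l95 l96) (HoldsOn.splitA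 (by decide) (HoldsOn.splitA (by decide) (HoldsOn.splitA (by decide) (HoldsOn.splitB (by decide) l71 (HoldsOn.splitB (by decide) l91 l92)) (HoldsOn.splitB (by decide) l70 (HoldsOn.splitB (by decide) l105 l106))) (HoldsOn.splitB (by decide) l63 (HoldsOn.splitB (by decide) l78 (HoldsOn.splitB (by decide) l115 l116)))) (HoldsOn.splitB (by decide) l43 (HoldsOn.splitB (by decide) l56 l57))))) l28)) (HoldsOn.splitB (by decide) l33 (HoldsOn.splitB (by decide) (HoldsOn.splitB (by decide) (HoldsOn.splitB (by decide) l74 l75) (HoldsOn.splitA (by decide) l87 (HoldsOn.splitA (by decide) l117 l118))) (HoldsOn.splitA (by decide) l88 (HoldsOn.splitA (by decide) l101 l102))))))) (HoldsOn.splitA (by decide) (HoldsOn.splitB (by decide) (HoldsOn.splitB (by decide) (HoldsOn.splitB (by decide) l20 l21) l4) (HoldsOn.splitB (by decide) (HoldsOn.splitA (by decide) l22 l23) (HoldsOn.splitB (by decide) l18 l19))) (HoldsOn.splitB (by decide) (HoldsOn.splitB (by decide)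 l5 l6) (HoldsOn.splitB (by decide) (HoldsOn.splitA (by decide) l52 l53) l7))))

lemma hHM : HoldsOn Lq Rq (chamber 1 1) (chamberNR 1 4) :=
  (HoldsOn.splitA (by decide) (HoldsOn.splitA (by decide) (HoldsOn.splitB (by decide) (HoldsOn.splitB (by decide) l8 l9) (HoldsOn.splitB (by decide) l10 (HoldsOn.splitA (by decide) l24 (HoldsOn.splitB (by decide) (HoldsOn.splitB (by decide) (HoldsOn.splitA (by decide) l59 (HoldsOn.splitA (by decide) l103 l104)) l34) (HoldsOn.splitA (by decide) l81 l82))))) (HoldsOn.splitB (by decide) (HoldsOn.splitB (by decide) l11 l12) (HoldsOn.splitB (by decide) (HoldsOn.splitA (by decide) (HoldsOn.splitB (by decide) (HoldsOn.splitA (by decide) l39 (HoldsOn.splitB (by decide) l46 (HoldsOn.splitB (by decide) (HoldsOn.splitA (by decide) l119 l120) (HoldsOn.splitB (by decide) l76 (HoldsOn.splitB (by decide) l107 l108))))) l31) (HoldsOn.splitB (by decide) l35 l32)) (HoldsOn.splitB (by decide) l38 (HoldsOn.splitB (by decide)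 (HoldsOn.splitA (by decide) l68 l69) l58))))) (HoldsOn.splitA (by decide) (HoldsOn.splitB (by decide) (HoldsOn.splitB (by decide) (HoldsOn.splitB (by decide) l85 l86) l13) (HoldsOn.splitB (by decide) (HoldsOn.splitA (by decide) l25 l26) (HoldsOn.splitB (by decide) l41 l42))) (HoldsOn.splitB (by decide) (HoldsOn.splitB (by decide) l14 l15) (HoldsOn.splitB (by decide) l16 l17))))

lemma hrhs (a c : Tp) : rhsL Rq a (sc (((1 : ℕ) : ℝ) / ((4 : ℕ) : ℝ)) c) =
    potL Lq a + (((1 : ℕ) : ℝ) / ((4 : ℕ) : ℝ)) ^ 2 * potL Lq c -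
      (154 / 1) * (p2T a * p2T (sc (((1 : ℕ) : ℝ) / ((4 : ℕ) : ℝ)) c)) := by
  simp only [rhsL, potL, Rq, Lq, List.map_cons, List.map_nil, List.sum_cons, List.sum_nil, sc,
    p2T_scale', p3T_scale']
  norm_num
  try ring

/-- **Nonreconstruction for `-1/4 ≤ lam ≤ 0`**, for every offspring law with mean `d` and
`d lam ^ 2 ≤ 1`. -/
theorem tendsto {π : ℕ → ℝ} {d lam : ℝ} (hπ0 : ∀ k, 0 ≤ π k) (hπ : HasSum π 1)
    (hmean : HasSum (fun k : ℕ => (k : ℝ) * π k) d) (k₀ : ℕ) (hπ2 : 0 < π (k₀ + 2))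
    (hl0 : -(((1 : ℕ) : ℝ) / ((4 : ℕ) : ℝ)) ≤ lam) (hl : lam ≤ 0) (hd : d * lam ^ 2 ≤ 1) :
    Tendsto (advantage π 3 lam) atTop (𝓝 0) := by
  refine tendsto_neg (L := Lq) (R := Rq) (p := 1) (q := 4) (T := 154 / 1) (C := 16384)
    (K' := 1 / 16384) hπ0 hπ hmean k₀ hπ2 (by norm_num) (by norm_num) (by norm_num) rfl
    hHP hHM
    hrhs (by norm_num) ?_ ?_ ?_ hNn ?_ hBd hl0 hl hd
  · intro c hc μ h0 h1
    exact (hall c hc μ (by have : (0 : ℝ) ≤ (((1 : ℕ) : ℝ) / ((4 : ℕ) : ℝ)) := by positivity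
                           linarith) h1).2
  · intro c hc
    have := (hall c hc (-(((1 : ℕ) : ℝ) / ((4 : ℕ) : ℝ))) le_rfl (by norm_num)).2
    rw [neg_sq] at this
    exact this
  · have : potL Lq ⟨0, 0, 0⟩ = 0 := by
      simp only [potL, Lq, List.map_cons, List.map_nil, List.sum_cons, List.sum_nil, p2T, p3T]
      norm_num
    exact this.le
  · intro c hc
    have := hG c hc
    rw [div_mul_eq_mul_div, le_div_iff₀ (by norm_num)]
    linarith

end Vale.Agent.Lib.P154Neg.A4
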