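import Vale.Agent.Lib.P154Neg.A4.Data

/-!
# Parts of the ray inequality
-/

namespace Vale.Agent.Lib.P154Neg.A4

open Vale.Agent.Lib.P154 Vale.Agent.Lib.P154GW Vale.Agent.Lib.P154K Tp

/-- A part of the subdivision for the ray inequality. -/
def rayT0 : RT := .leaf

theorem rayC0 : rayChk 185 12 10 Lq rayT0 (Trg.left (chamber 1 1)) (-256) 384 1024 = true := by
  decide +kernel

lemma rayL0 : RayOn Lq (Trg.left (chamber 1 1)) (((-256 : ℤ) : ℝ) / ((1024 : ℤ) : ℝ)) (((384 : ℤ) : ℝ) / ((1024 : ℤ) : ℝ)) :=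
  rayOn_of_rayChk hLne hLq2 hLq3 rayT0 _ _ _ _ (by decide) (by norm_num) (by norm_num) rayC0

/-- A part of the subdivision for the ray inequality. -/
def rayT1 : RT := (.sT (.sT .leaf .leaf) .leaf)

theorem rayC1 : rayChk 210 12 10 Lq rayT1 (Trg.left (chamber 1 1)) (384) 464 1024 = true := by
  decide +kernel

lemma rayL1 : RayOn Lq (Trg.left (chamber 1 1)) (((384 : ℤ) : ℝ) / ((1024 : ℤ) : ℝ)) (((464 : ℤ) : ℝ) / ((1024 : ℤ) : ℝ)) :=
  rayOn_of_rayChk hLne hLq2 hLq3 rayT1 _ _ _ _ (by decide) (by norm_num) (by norm_num) rayC1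

/-- A part of the subdivision for the ray inequality. -/
def rayT2 : RT := (.sM (474) (.sM (469) (.sM (466) (.sM (465) (.sT (.sT .leaf .leaf) .leaf) (.sT (.sT .leaf .leaf) .leaf)) (.sM (467) (.sT (.sT .leaf .leaf) .leaf) (.sM (468) (.sT (.sT .leaf .leaf) .leaf) (.sT (.sT .leaf .leaf) .leaf)))) (.sM (471) (.sM (470) (.sT (.sT .leaf .leaf) .leaf) (.sT (.sT .leaf .leaf) .leaf)) (.sM (472) (.sT (.sT .leaf .leaf) .leaf) (.sM (473) (.sT (.sT .leaf .leaf) .leaf) (.sT (.sT .leaf .leaf) .leaf))))) (.sM (479) (.sM (476) (.sM (475) (.sT (.sT .leaf .leaf) .leaf) (.sT (.sT .leaf .leaf) .leaf)) (.sM (477) (.sT (.sT .leaf .leaf) .leaf) (.sM (478) (.sT (.sT .leaf .leaf) .leaf) (.sT (.sT .leaf .leaf) .leaf)))) (.sM (481) (.sM (480) (.sT (.sT .leaf .leaf) .leaf) (.sT (.sT .leaf .leaf) .leaf)) (.sM (482) (.sT (.sT .leaf .leaf) .leaf) (.sM (483) (.sT (.sT .leaf .leaf) .leaf) (.sT (.sT .leaf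 .leaf) .leaf))))))

theorem rayC2 : rayChk 210 12 10 Lq rayT2 (Trg.left (chamber 1 1)) (464) 484 1024 = true := by
  decide +kernel

lemma rayL2 : RayOn Lq (Trg.left (chamber 1 1)) (((464 : ℤ) : ℝ) / ((1024 : ℤ) : ℝ)) (((484 : ℤ) : ℝ) / ((1024 : ℤ) : ℝ)) :=
  rayOn_of_rayChk hLne hLq2 hLq3 rayT2 _ _ _ _ (by decide) (by norm_num) (by norm_num) rayC2

/-- A part of the subdivision for the ray inequality. -/
def rayT3 : RT := (.sM (494) (.sM (489) (.sM (486) (.sM (485) (.sT (.sT .leaf .leaf) .leaf) (.sT (.sT .leaf .leaf) .leaf)) (.sM (487) (.sT (.sT .leaf .leaf) .leaf) (.sM (488) (.sT (.sT .leaf .leaf) .leaf) (.sT (.sT .leaf .leaf) .leaf)))) (.sM (491) (.sM (490) (.sT (.sT .leaf .leaf) .leaf) (.sT (.sT .leaf .leaf) .leaf)) (.sM (492) (.sT (.sT .leaf .leaf) .leaf) (.sM (493) (.sT (.sT .leaf .leaf) .leaf) (.sT (.sT .leaf .leaf) .leaf))))) (.sM (499) (.sM (496) (.sM (495) (.sT (.sT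 .leaf .leaf) .leaf) (.sT (.sT .leaf .leaf) .leaf)) (.sM (497) (.sT (.sT .leaf .leaf) .leaf) (.sM (498) (.sT (.sT .leaf .leaf) .leaf) (.sT (.sT .leaf .leaf) .leaf)))) (.sM (501) (.sM (500) (.sT (.sT .leaf .leaf) .leaf) (.sT (.sT .leaf .leaf) .leaf)) (.sM (502) (.sT (.sT .leaf .leaf) .leaf) (.sM (503) (.sT (.sT .leaf .leaf) .leaf) (.sT (.sT .leaf .leaf) .leaf))))))

theorem rayC3 : rayChk 210 12 10 Lq rayT3 (Trg.left (chamber 1 1)) (484) 504 1024 = true := by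
  decide +kernel

lemma rayL3 : RayOn Lq (Trg.left (chamber 1 1)) (((484 : ℤ) : ℝ) / ((1024 : ℤ) : ℝ)) (((504 : ℤ) : ℝ) / ((1024 : ℤ) : ℝ)) :=
  rayOn_of_rayChk hLne hLq2 hLq3 rayT3 _ _ _ _ (by decide) (by norm_num) (by norm_num) rayC3

end Vale.Agent.Lib.P154Neg.A4
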