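import Vale.Agent.Lib.P154Neg.A4.Data

/-!
# Parts of the ray inequality
-/

namespace Vale.Agent.Lib.P154Neg.A4

open Vale.Agent.Lib.P154 Vale.Agent.Lib.P154GW Vale.Agent.Lib.P154K Tp

/-- A part of the subdivision for the ray inequality. -/
def rayT4 : RT := (.sM (514) (.sM (509) (.sM (506) (.sM (505) (.sT (.sT .leaf .leaf) .leaf) (.sT (.sT .leaf .leaf) .leaf)) (.sM (507) (.sT (.sT .leaf .leaf) .leaf) (.sM (508) (.sT (.sT .leaf .leaf) .leaf) (.sT (.sT .leaf .leaf) .leaf)))) (.sM (511) (.sM (510) (.sT (.sT .leaf .leaf) .leaf) (.sT (.sT .leaf .leaf) .leaf)) (.sM (512) (.sT (.sT .leaf .leaf) .leaf) (.sM (513) (.sT (.sT .leaf .leaf) .leaf) (.sT (.sT .leaf .leaf) .leaf))))) (.sM (519) (.sM (516) (.sM (515) (.sT (.sT .leaf .leaf) .leaf) (.sT (.sT .leaf .leaf) .leaf)) (.sM (517) (.sT (.sT .leaf .leaf) .leaf) (.sM (518) (.sT (.sT .leaf .leaf) .leaf) (.sT (.sT .leaf .leaf)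 .leaf)))) (.sM (521) (.sM (520) (.sT (.sT .leaf .leaf) .leaf) (.sT (.sT .leaf .leaf) .leaf)) (.sM (522) (.sT (.sT .leaf .leaf) .leaf) (.sM (523) (.sT (.sT .leaf .leaf) .leaf) (.sT (.sT .leaf .leaf) .leaf))))))

theorem rayC4 : rayChk 210 12 10 Lq rayT4 (Trg.left (chamber 1 1)) (504) 524 1024 = true := by
  decide +kernel

lemma rayL4 : RayOn Lq (Trg.left (chamber 1 1)) (((504 : ℤ) : ℝ) / ((1024 : ℤ) : ℝ)) (((524 : ℤ) : ℝ) / ((1024 : ℤ) : ℝ)) :=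
  rayOn_of_rayChk hLne hLq2 hLq3 rayT4 _ _ _ _ (by decide) (by norm_num) (by norm_num) rayC4

/-- A part of the subdivision for the ray inequality. -/
def rayT5 : RT := (.sM (534) (.sM (529) (.sM (526) (.sM (525) (.sT (.sT .leaf .leaf) .leaf) (.sT (.sT .leaf .leaf) .leaf)) (.sM (527) (.sT (.sT .leaf .leaf) .leaf) (.sM (528) (.sT (.sT .leaf .leaf) .leaf) (.sT (.sT .leaf .leaf) .leaf)))) (.sM (531) (.sM (530) (.sT (.sT .leaf .leaf) .leaf) (.sT (.sT .leaf .leaf) .leaf)) (.sM (532) (.sT (.sT .leaf .leaf) .leaf) (.sM (533) (.sT (.sT .leaf .leaf) .leaf) (.sT (.sT .leaf .leaf) .leaf))))) (.sM (539) (.sM (536) (.sM (535) (.sT (.sT .leaf .leaf) .leaf) (.sT (.sT .leaf .leaf) .leaf)) (.sM (537) (.sT (.sT .leaf .leaf) .leaf) (.sM (538) (.sT (.sT .leaf .leaf) .leaf) (.sT (.sT .leaf .leaf) .leaf)))) (.sM (541) (.sM (540) (.sT (.sT .leaf .leaf) .leaf) (.sT (.sT .leaf .leaf) .leaf))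 (.sM (542) (.sT (.sT .leaf .leaf) .leaf) (.sM (543) (.sT (.sT .leaf .leaf) .leaf) (.sT (.sT .leaf .leaf) .leaf))))))

theorem rayC5 : rayChk 210 12 10 Lq rayT5 (Trg.left (chamber 1 1)) (524) 544 1024 = true := by
  decide +kernel

lemma rayL5 : RayOn Lq (Trg.left (chamber 1 1)) (((524 : ℤ) : ℝ) / ((1024 : ℤ) : ℝ)) (((544 : ℤ) : ℝ) / ((1024 : ℤ) : ℝ)) :=
  rayOn_of_rayChk hLne hLq2 hLq3 rayT5 _ _ _ _ (by decide) (by norm_num) (by norm_num) rayC5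

/-- A part of the subdivision for the ray inequality. -/
def rayT6 : RT := (.sM (554) (.sM (549) (.sM (546) (.sM (545) (.sT (.sT .leaf .leaf) .leaf) (.sT (.sT .leaf .leaf) .leaf)) (.sM (547) (.sT (.sT .leaf .leaf) .leaf) (.sM (548) (.sT (.sT .leaf .leaf) .leaf) (.sT (.sT .leaf .leaf) .leaf)))) (.sM (551) (.sM (550) (.sT (.sT .leaf .leaf) .leaf) (.sT (.sT .leaf .leaf) .leaf)) (.sM (552) (.sT (.sT .leaf .leaf) .leaf) (.sM (553) (.sT (.sT .leaf .leaf) .leaf) (.sT (.sT .leaf .leaf) .leaf))))) (.sM (559) (.sM (556) (.sM (555) (.sT (.sT .leaf .leaf) .leaf) (.sT (.sT .leaf .leaf) .leaf)) (.sM (557) (.sT (.sT .leaf .leaf) .leaf) (.sM (558) (.sT (.sT .leaf .leaf) .leaf) (.sT (.sT .leaf .leaf) .leaf)))) (.sM (561) (.sM (560) (.sT (.sT .leaf .leaf) .leaf) (.sT (.sT .leaf .leaf) .leaf)) (.sM (562) (.sT (.sT .leaf .leaf) .leaf) (.sM (563) (.sT (.sT .leaf .leaf) .leaf) (.sT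 (.sT .leaf .leaf) .leaf))))))

theorem rayC6 : rayChk 210 12 10 Lq rayT6 (Trg.left (chamber 1 1)) (544) 564 1024 = true := by
  decide +kernel

lemma rayL6 : RayOn Lq (Trg.left (chamber 1 1)) (((544 : ℤ) : ℝ) / ((1024 : ℤ) : ℝ)) (((564 : ℤ) : ℝ) / ((1024 : ℤ) : ℝ)) :=
  rayOn_of_rayChk hLne hLq2 hLq3 rayT6 _ _ _ _ (by decide) (by norm_num) (by norm_num) rayC6

/-- A part of the subdivision for the ray inequality. -/
def rayT7 : RT := (.sM (574) (.sM (569) (.sM (566) (.sM (565) (.sT (.sT .leaf .leaf) .leaf) (.sT (.sT .leaf .leaf) .leaf)) (.sM (567) (.sT (.sT .leaf .leaf) .leaf) (.sM (568) (.sT (.sT .leaf .leaf) .leaf) (.sT (.sT .leaf .leaf) .leaf)))) (.sM (571) (.sM (570) (.sT (.sT .leaf .leaf) .leaf) (.sT (.sT .leaf .leaf) .leaf)) (.sM (572) (.sT (.sT .leaf .leaf) .leaf) (.sM (573) (.sT (.sT .leaf .leaf) .leaf) (.sT (.sT .leaf .leaf) .leaf))))) (.sM (579) (.sM (576)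 (.sM (575) (.sT (.sT .leaf .leaf) .leaf) (.sT (.sT .leaf .leaf) .leaf)) (.sM (577) (.sT (.sT .leaf .leaf) .leaf) (.sM (578) (.sT (.sT .leaf .leaf) .leaf) (.sT (.sT .leaf .leaf) .leaf)))) (.sM (581) (.sM (580) (.sT (.sT .leaf .leaf) .leaf) (.sT (.sT .leaf .leaf) .leaf)) (.sM (582) (.sT (.sT .leaf .leaf) .leaf) (.sM (583) (.sT (.sT .leaf .leaf) .leaf) (.sT (.sT .leaf .leaf) .leaf))))))

theorem rayC7 : rayChk 210 12 10 Lq rayT7 (Trg.left (chamber 1 1)) (564) 584 1024 = true := by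
  decide +kernel

lemma rayL7 : RayOn Lq (Trg.left (chamber 1 1)) (((564 : ℤ) : ℝ) / ((1024 : ℤ) : ℝ)) (((584 : ℤ) : ℝ) / ((1024 : ℤ) : ℝ)) :=
  rayOn_of_rayChk hLne hLq2 hLq3 rayT7 _ _ _ _ (by decide) (by norm_num) (by norm_num) rayC7

end Vale.Agent.Lib.P154Neg.A4
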