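import Vale.Agent.Lib.P154Neg.A4.Data

/-!
# Parts of the ray inequality
-/

namespace Vale.Agent.Lib.P154Neg.A4

open Vale.Agent.Lib.P154 Vale.Agent.Lib.P154GW Vale.Agent.Lib.P154K Tp

/-- A part of the subdivision for the ray inequality. -/
def rayT8 : RT := (.sM (594) (.sM (589) (.sM (586) (.sM (585) (.sT (.sT .leaf .leaf) .leaf) (.sT (.sT .leaf .leaf) .leaf)) (.sM (587) (.sT (.sT .leaf .leaf) .leaf) (.sM (588) (.sT (.sT .leaf .leaf) .leaf) (.sT (.sT .leaf .leaf) .leaf)))) (.sM (591) (.sM (590) (.sT (.sT .leaf .leaf) .leaf) (.sT (.sT .leaf .leaf) .leaf)) (.sM (592) (.sT (.sT .leaf .leaf) .leaf) (.sM (593) (.sT (.sT .leaf .leaf) .leaf) (.sT (.sT .leaf .leaf) .leaf))))) (.sM (599) (.sM (596) (.sM (595) (.sT (.sT .leaf .leaf) .leaf) (.sT (.sT .leaf .leaf) .leaf)) (.sM (597) (.sT (.sT .leaf .leaf) .leaf) (.sM (598) (.sT (.sT .leaf .leaf) .leaf) (.sT (.sT .leaf .leaf)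 .leaf)))) (.sM (601) (.sM (600) (.sT (.sT .leaf .leaf) .leaf) (.sT (.sT .leaf .leaf) .leaf)) (.sM (602) (.sT (.sT .leaf .leaf) .leaf) (.sM (603) (.sT (.sT .leaf .leaf) .leaf) (.sT (.sT .leaf .leaf) .leaf))))))

theorem rayC8 : rayChk 210 12 10 Lq rayT8 (Trg.left (chamber 1 1)) (584) 604 1024 = true := by
  decide +kernel

lemma rayL8 : RayOn Lq (Trg.left (chamber 1 1)) (((584 : ℤ) : ℝ) / ((1024 : ℤ) : ℝ)) (((604 : ℤ) : ℝ) / ((1024 : ℤ) : ℝ)) :=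
  rayOn_of_rayChk hLne hLq2 hLq3 rayT8 _ _ _ _ (by decide) (by norm_num) (by norm_num) rayC8

/-- A part of the subdivision for the ray inequality. -/
def rayT9 : RT := (.sM (614) (.sM (609) (.sM (606) (.sM (605) (.sT (.sT .leaf .leaf) .leaf) (.sT (.sT .leaf .leaf) .leaf)) (.sM (607) (.sT (.sT .leaf .leaf) .leaf) (.sM (608) (.sT (.sT .leaf .leaf) .leaf) (.sT (.sT .leaf .leaf) .leaf)))) (.sM (611) (.sM (610) (.sT (.sT .leaf .leaf) .leaf) (.sT (.sT .leaf .leaf) .leaf)) (.sM (612) (.sT (.sT .leaf .leaf) .leaf) (.sM (613) (.sT (.sT .leaf .leaf) .leaf) (.sT (.sT .leaf .leaf) .leaf))))) (.sM (619) (.sM (616) (.sM (615) (.sT (.sT .leaf .leaf) .leaf) (.sT (.sT .leaf .leaf) .leaf)) (.sM (617) (.sT (.sT .leaf .leaf) .leaf) (.sM (618) (.sT (.sT .leaf .leaf) .leaf) (.sT (.sT .leaf .leaf) .leaf)))) (.sM (621) (.sM (620) (.sT (.sT .leaf .leaf) .leaf) (.sT (.sT .leaf .leaf) .leaf))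 (.sM (622) (.sT (.sT .leaf .leaf) .leaf) (.sM (623) (.sT (.sT .leaf .leaf) .leaf) (.sT (.sT .leaf .leaf) .leaf))))))

theorem rayC9 : rayChk 210 12 10 Lq rayT9 (Trg.left (chamber 1 1)) (604) 624 1024 = true := by
  decide +kernel

lemma rayL9 : RayOn Lq (Trg.left (chamber 1 1)) (((604 : ℤ) : ℝ) / ((1024 : ℤ) : ℝ)) (((624 : ℤ) : ℝ) / ((1024 : ℤ) : ℝ)) :=
  rayOn_of_rayChk hLne hLq2 hLq3 rayT9 _ _ _ _ (by decide) (by norm_num) (by norm_num) rayC9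

/-- A part of the subdivision for the ray inequality. -/
def rayT10 : RT := (.sM (634) (.sM (629) (.sM (626) (.sM (625) (.sT (.sT .leaf .leaf) .leaf) (.sT (.sT .leaf .leaf) .leaf)) (.sM (627) (.sT (.sT .leaf .leaf) .leaf) (.sM (628) (.sT (.sT .leaf .leaf) .leaf) (.sT (.sT .leaf .leaf) .leaf)))) (.sM (631) (.sM (630) (.sT (.sT .leaf .leaf) .leaf) (.sT (.sT .leaf .leaf) .leaf)) (.sM (632) (.sT (.sT .leaf .leaf) .leaf) (.sM (633) (.sT (.sT .leaf .leaf) .leaf) (.sT (.sT .leaf .leaf) .leaf))))) (.sM (639) (.sM (636) (.sM (635) (.sT (.sT .leaf .leaf) .leaf) (.sT (.sT .leaf .leaf) .leaf)) (.sM (637) (.sT (.sT .leaf .leaf) .leaf) (.sM (638) (.sT (.sT .leaf .leaf) .leaf) (.sT (.sT .leaf .leaf) .leaf)))) (.sM (641) (.sM (640) (.sT (.sT .leaf .leaf) .leaf) (.sT (.sT .leaf .leaf) .leaf)) (.sM (642) (.sT (.sT .leaf .leaf) .leaf) (.sM (643) (.sT (.sT .leaf .leaf) .leaf) (.sT (.sT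 .leaf .leaf) .leaf))))))

theorem rayC10 : rayChk 210 12 10 Lq rayT10 (Trg.left (chamber 1 1)) (624) 644 1024 = true := by
  decide +kernel

lemma rayL10 : RayOn Lq (Trg.left (chamber 1 1)) (((624 : ℤ) : ℝ) / ((1024 : ℤ) : ℝ)) (((644 : ℤ) : ℝ) / ((1024 : ℤ) : ℝ)) :=
  rayOn_of_rayChk hLne hLq2 hLq3 rayT10 _ _ _ _ (by decide) (by norm_num) (by norm_num) rayC10

/-- A part of the subdivision for the ray inequality. -/
def rayT11 : RT := (.sM (654) (.sM (649) (.sM (646) (.sM (645) (.sT (.sT .leaf .leaf) .leaf) (.sT (.sT .leaf .leaf) .leaf)) (.sM (647) (.sT (.sT .leaf .leaf) .leaf) (.sM (648) (.sT (.sT .leaf .leaf) .leaf) (.sT (.sT .leaf .leaf) .leaf)))) (.sM (651) (.sM (650) (.sT (.sT .leaf .leaf) .leaf) (.sT (.sT .leaf .leaf) .leaf)) (.sM (652) (.sT (.sT .leaf .leaf) .leaf) (.sM (653) (.sT (.sT .leaf .leaf) .leaf) (.sT (.sT .leaf .leaf) .leaf))))) (.sM (659) (.sM (656)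 (.sM (655) (.sT (.sT .leaf .leaf) .leaf) (.sT (.sT .leaf .leaf) .leaf)) (.sM (657) (.sT (.sT .leaf .leaf) .leaf) (.sM (658) (.sT (.sT .leaf .leaf) .leaf) (.sT (.sT .leaf .leaf) .leaf)))) (.sM (661) (.sM (660) (.sT (.sT .leaf .leaf) .leaf) (.sT (.sT .leaf .leaf) .leaf)) (.sM (662) (.sT (.sT .leaf .leaf) .leaf) (.sM (663) (.sT (.sT .leaf .leaf) .leaf) (.sT (.sT .leaf .leaf) .leaf))))))

theorem rayC11 : rayChk 210 12 10 Lq rayT11 (Trg.left (chamber 1 1)) (644) 664 1024 = true := by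
  decide +kernel

lemma rayL11 : RayOn Lq (Trg.left (chamber 1 1)) (((644 : ℤ) : ℝ) / ((1024 : ℤ) : ℝ)) (((664 : ℤ) : ℝ) / ((1024 : ℤ) : ℝ)) :=
  rayOn_of_rayChk hLne hLq2 hLq3 rayT11 _ _ _ _ (by decide) (by norm_num) (by norm_num) rayC11

end Vale.Agent.Lib.P154Neg.A4
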