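import Vale.Agent.Lib.P154Neg.A4.Data

/-!
# Parts of the ray inequality
-/

namespace Vale.Agent.Lib.P154Neg.A4

open Vale.Agent.Lib.P154 Vale.Agent.Lib.P154GW Vale.Agent.Lib.P154K Tp

/-- A part of the subdivision for the ray inequality. -/
def rayT12 : RT := (.sM (674) (.sM (669) (.sM (666) (.sM (665) (.sT (.sT .leaf .leaf) .leaf) (.sT (.sT .leaf .leaf) .leaf)) (.sM (667) (.sT (.sT .leaf .leaf) .leaf) (.sM (668) (.sT (.sT .leaf .leaf) .leaf) (.sT (.sT .leaf .leaf) .leaf)))) (.sM (671) (.sM (670) (.sT (.sT .leaf .leaf) .leaf) (.sT (.sT .leaf .leaf) .leaf)) (.sM (672) (.sT (.sT .leaf .leaf) .leaf) (.sM (673) (.sT (.sT .leaf .leaf) .leaf) (.sT (.sT .leaf .leaf) .leaf))))) (.sM (679) (.sM (676) (.sM (675) (.sT (.sT .leaf .leaf) .leaf) (.sT (.sT .leaf .leaf) .leaf)) (.sM (677) (.sT (.sT .leaf .leaf) .leaf) (.sM (678) (.sT (.sT .leaf .leaf) .leaf) (.sT (.sT .leaf .leaf)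 .leaf)))) (.sM (681) (.sM (680) (.sT (.sT .leaf .leaf) .leaf) (.sT (.sT .leaf .leaf) .leaf)) (.sM (682) (.sT (.sT .leaf .leaf) .leaf) (.sM (683) (.sT (.sT .leaf .leaf) .leaf) (.sT (.sT .leaf .leaf) .leaf))))))

theorem rayC12 : rayChk 210 12 10 Lq rayT12 (Trg.left (chamber 1 1)) (664) 684 1024 = true := by
  decide +kernel

lemma rayL12 : RayOn Lq (Trg.left (chamber 1 1)) (((664 : ℤ) : ℝ) / ((1024 : ℤ) : ℝ)) (((684 : ℤ) : ℝ) / ((1024 : ℤ) : ℝ)) :=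
  rayOn_of_rayChk hLne hLq2 hLq3 rayT12 _ _ _ _ (by decide) (by norm_num) (by norm_num) rayC12

/-- A part of the subdivision for the ray inequality. -/
def rayT13 : RT := (.sM (694) (.sM (689) (.sM (686) (.sM (685) (.sT (.sT .leaf .leaf) .leaf) (.sT (.sT .leaf .leaf) .leaf)) (.sM (687) (.sT (.sT .leaf .leaf) .leaf) (.sM (688) (.sT (.sT .leaf .leaf) .leaf) (.sT (.sT .leaf .leaf) .leaf)))) (.sM (691) (.sM (690) (.sT (.sT .leaf .leaf) .leaf) (.sT (.sT .leaf .leaf) .leaf)) (.sM (692) (.sT (.sT .leaf .leaf) .leaf) (.sM (693) (.sT (.sT .leaf .leaf) .leaf) (.sT (.sT .leaf .leaf) .leaf))))) (.sM (699) (.sM (696) (.sM (695) (.sT (.sT .leaf .leaf) .leaf) (.sT (.sT .leaf .leaf) .leaf)) (.sM (697) (.sT (.sT .leaf .leaf) .leaf) (.sM (698) (.sT (.sT .leaf .leaf) .leaf) (.sT (.sT .leaf .leaf) .leaf)))) (.sM (701) (.sM (700) (.sT (.sT .leaf .leaf) .leaf) (.sT (.sT .leaf .leaf) .leaf))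 (.sM (702) (.sT (.sT .leaf .leaf) .leaf) (.sM (703) (.sT (.sT .leaf .leaf) .leaf) (.sT (.sT .leaf .leaf) .leaf))))))

theorem rayC13 : rayChk 210 12 10 Lq rayT13 (Trg.left (chamber 1 1)) (684) 704 1024 = true := by
  decide +kernel

lemma rayL13 : RayOn Lq (Trg.left (chamber 1 1)) (((684 : ℤ) : ℝ) / ((1024 : ℤ) : ℝ)) (((704 : ℤ) : ℝ) / ((1024 : ℤ) : ℝ)) :=
  rayOn_of_rayChk hLne hLq2 hLq3 rayT13 _ _ _ _ (by decide) (by norm_num) (by norm_num) rayC13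

/-- A part of the subdivision for the ray inequality. -/
def rayT14 : RT := (.sM (714) (.sM (709) (.sM (706) (.sM (705) (.sT (.sT .leaf .leaf) .leaf) (.sT (.sT .leaf .leaf) .leaf)) (.sM (707) (.sT (.sT .leaf .leaf) .leaf) (.sM (708) (.sT (.sT .leaf .leaf) .leaf) (.sT (.sT .leaf .leaf) .leaf)))) (.sM (711) (.sM (710) (.sT (.sT .leaf .leaf) .leaf) (.sT (.sT .leaf .leaf) .leaf)) (.sM (712) (.sT (.sT .leaf .leaf) .leaf) (.sM (713) (.sT (.sT .leaf .leaf) .leaf) (.sT (.sT .leaf .leaf) .leaf))))) (.sM (719) (.sM (716) (.sM (715) (.sT (.sT .leaf .leaf) .leaf) (.sT (.sT .leaf .leaf) .leaf)) (.sM (717) (.sT (.sT .leaf .leaf) .leaf) (.sM (718) (.sT (.sT .leaf .leaf) .leaf) (.sT (.sT .leaf .leaf) .leaf)))) (.sM (721) (.sM (720) (.sT (.sT .leaf .leaf) .leaf) (.sT (.sT .leaf .leaf) .leaf)) (.sM (722) (.sT (.sT .leaf .leaf) .leaf) (.sM (723) (.sT (.sT .leaf .leaf) .leaf) (.sT (.sT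 .leaf .leaf) .leaf))))))

theorem rayC14 : rayChk 210 12 10 Lq rayT14 (Trg.left (chamber 1 1)) (704) 724 1024 = true := by
  decide +kernel

lemma rayL14 : RayOn Lq (Trg.left (chamber 1 1)) (((704 : ℤ) : ℝ) / ((1024 : ℤ) : ℝ)) (((724 : ℤ) : ℝ) / ((1024 : ℤ) : ℝ)) :=
  rayOn_of_rayChk hLne hLq2 hLq3 rayT14 _ _ _ _ (by decide) (by norm_num) (by norm_num) rayC14

/-- A part of the subdivision for the ray inequality. -/
def rayT15 : RT := (.sM (734) (.sM (729) (.sM (726) (.sM (725) (.sT (.sT .leaf .leaf) .leaf) (.sT (.sT .leaf .leaf) .leaf)) (.sM (727) (.sT (.sT .leaf .leaf) .leaf) (.sM (728) (.sT (.sT .leaf .leaf) .leaf) (.sT (.sT .leaf .leaf) .leaf)))) (.sM (731) (.sM (730) (.sT (.sT .leaf .leaf) .leaf) (.sT (.sT .leaf .leaf) .leaf)) (.sM (732) (.sT (.sT .leaf .leaf) .leaf) (.sM (733) (.sT (.sT .leaf .leaf) .leaf) (.sT (.sT .leaf .leaf) .leaf))))) (.sM (739) (.sM (736)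 (.sM (735) (.sT (.sT .leaf .leaf) .leaf) (.sT (.sT .leaf .leaf) .leaf)) (.sM (737) (.sT (.sT .leaf .leaf) .leaf) (.sM (738) (.sT (.sT .leaf .leaf) .leaf) (.sT (.sT .leaf .leaf) .leaf)))) (.sM (741) (.sM (740) (.sT (.sT .leaf .leaf) .leaf) (.sT (.sT .leaf .leaf) .leaf)) (.sM (742) (.sT (.sT .leaf .leaf) .leaf) (.sM (743) (.sT (.sT .leaf .leaf) .leaf) (.sT (.sT .leaf .leaf) .leaf))))))

theorem rayC15 : rayChk 210 12 10 Lq rayT15 (Trg.left (chamber 1 1)) (724) 744 1024 = true := by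
  decide +kernel

lemma rayL15 : RayOn Lq (Trg.left (chamber 1 1)) (((724 : ℤ) : ℝ) / ((1024 : ℤ) : ℝ)) (((744 : ℤ) : ℝ) / ((1024 : ℤ) : ℝ)) :=
  rayOn_of_rayChk hLne hLq2 hLq3 rayT15 _ _ _ _ (by decide) (by norm_num) (by norm_num) rayC15

end Vale.Agent.Lib.P154Neg.A4
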