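import Vale.Agent.Lib.P154Neg.A4.Data

/-!
# Parts of the ray inequality
-/

namespace Vale.Agent.Lib.P154Neg.A4

open Vale.Agent.Lib.P154 Vale.Agent.Lib.P154GW Vale.Agent.Lib.P154K Tp

/-- A part of the subdivision for the ray inequality. -/
def rayT16 : RT := (.sM (754) (.sM (749) (.sM (746) (.sM (745) (.sT (.sT .leaf .leaf) .leaf) (.sT (.sT .leaf .leaf) .leaf)) (.sM (747) (.sT (.sT .leaf .leaf) .leaf) (.sM (748) (.sT (.sT .leaf .leaf) .leaf) (.sT (.sT .leaf .leaf) .leaf)))) (.sM (751) (.sM (750) (.sT (.sT .leaf .leaf) .leaf) (.sT (.sT .leaf .leaf) .leaf)) (.sM (752) (.sT (.sT .leaf .leaf) .leaf) (.sM (753) (.sT (.sT .leaf .leaf) .leaf) (.sT (.sT .leaf .leaf) .leaf))))) (.sM (759) (.sM (756) (.sM (755) (.sT (.sT .leaf .leaf) .leaf) (.sT (.sT .leaf .leaf) .leaf)) (.sM (757) (.sT (.sT .leaf .leaf) .leaf) (.sM (758) (.sT (.sT .leaf .leaf) .leaf) (.sT (.sT .leaf .leaf)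 .leaf)))) (.sM (761) (.sM (760) (.sT (.sT .leaf .leaf) .leaf) (.sT (.sT .leaf .leaf) .leaf)) (.sM (762) (.sT (.sT .leaf .leaf) .leaf) (.sM (763) (.sT (.sT .leaf .leaf) .leaf) (.sT (.sT .leaf .leaf) .leaf))))))

theorem rayC16 : rayChk 210 12 10 Lq rayT16 (Trg.left (chamber 1 1)) (744) 764 1024 = true := by
  decide +kernel

lemma rayL16 : RayOn Lq (Trg.left (chamber 1 1)) (((744 : ℤ) : ℝ) / ((1024 : ℤ) : ℝ)) (((764 : ℤ) : ℝ) / ((1024 : ℤ) : ℝ)) :=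
  rayOn_of_rayChk hLne hLq2 hLq3 rayT16 _ _ _ _ (by decide) (by norm_num) (by norm_num) rayC16

/-- A part of the subdivision for the ray inequality. -/
def rayT17 : RT := (.sM (774) (.sM (769) (.sM (766) (.sM (765) (.sT (.sT .leaf .leaf) .leaf) (.sT (.sT .leaf .leaf) .leaf)) (.sM (767) (.sT (.sT .leaf .leaf) .leaf) (.sM (768) (.sT (.sT .leaf .leaf) .leaf) (.sT (.sT .leaf .leaf) .leaf)))) (.sM (771) (.sM (770) (.sT (.sT .leaf .leaf) .leaf) (.sT (.sT .leaf .leaf) .leaf)) (.sM (772) (.sT (.sT .leaf .leaf) .leaf) (.sM (773) (.sT (.sT .leaf .leaf) .leaf) (.sT (.sT .leaf .leaf) .leaf))))) (.sM (779) (.sM (776) (.sM (775) (.sT (.sT .leaf .leaf) .leaf) (.sT (.sT .leaf .leaf) .leaf)) (.sM (777) (.sT (.sT .leaf .leaf) .leaf) (.sM (778) (.sT (.sT .leaf .leaf) .leaf) (.sT (.sT .leaf .leaf) .leaf)))) (.sM (781) (.sM (780) (.sT (.sT .leaf .leaf) .leaf) (.sT (.sT .leaf .leaf) .leaf))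 (.sM (782) (.sT (.sT .leaf .leaf) .leaf) (.sM (783) (.sT (.sT .leaf .leaf) .leaf) (.sT (.sT .leaf .leaf) .leaf))))))

theorem rayC17 : rayChk 210 12 10 Lq rayT17 (Trg.left (chamber 1 1)) (764) 784 1024 = true := by
  decide +kernel

lemma rayL17 : RayOn Lq (Trg.left (chamber 1 1)) (((764 : ℤ) : ℝ) / ((1024 : ℤ) : ℝ)) (((784 : ℤ) : ℝ) / ((1024 : ℤ) : ℝ)) :=
  rayOn_of_rayChk hLne hLq2 hLq3 rayT17 _ _ _ _ (by decide) (by norm_num) (by norm_num) rayC17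

/-- A part of the subdivision for the ray inequality. -/
def rayT18 : RT := (.sM (794) (.sM (789) (.sM (786) (.sM (785) (.sT (.sT .leaf .leaf) .leaf) (.sT (.sT .leaf .leaf) .leaf)) (.sM (787) (.sT (.sT .leaf .leaf) .leaf) (.sM (788) (.sT (.sT .leaf .leaf) .leaf) (.sT (.sT .leaf .leaf) .leaf)))) (.sM (791) (.sM (790) (.sT (.sT .leaf .leaf) .leaf) (.sT (.sT .leaf .leaf) .leaf)) (.sM (792) (.sT (.sT .leaf .leaf) .leaf) (.sM (793) (.sT (.sT .leaf .leaf) .leaf) (.sT (.sT .leaf .leaf) .leaf))))) (.sM (799) (.sM (796) (.sM (795) (.sT (.sT .leaf .leaf) .leaf) (.sT (.sT .leaf .leaf) .leaf)) (.sM (797) (.sT (.sT .leaf .leaf) .leaf) (.sM (798) (.sT (.sT .leaf .leaf) .leaf) (.sT (.sT .leaf .leaf) .leaf)))) (.sM (801) (.sM (800) (.sT (.sT .leaf .leaf) .leaf) (.sT (.sT .leaf .leaf) .leaf)) (.sM (802) (.sT (.sT .leaf .leaf) .leaf) (.sM (803) (.sT (.sT .leaf .leaf) .leaf) (.sT (.sT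 .leaf .leaf) .leaf))))))

theorem rayC18 : rayChk 210 12 10 Lq rayT18 (Trg.left (chamber 1 1)) (784) 804 1024 = true := by
  decide +kernel

lemma rayL18 : RayOn Lq (Trg.left (chamber 1 1)) (((784 : ℤ) : ℝ) / ((1024 : ℤ) : ℝ)) (((804 : ℤ) : ℝ) / ((1024 : ℤ) : ℝ)) :=
  rayOn_of_rayChk hLne hLq2 hLq3 rayT18 _ _ _ _ (by decide) (by norm_num) (by norm_num) rayC18

/-- A part of the subdivision for the ray inequality. -/
def rayT19 : RT := (.sM (814) (.sM (809) (.sM (806) (.sM (805) (.sT (.sT .leaf .leaf) .leaf) (.sT (.sT .leaf .leaf) .leaf)) (.sM (807) (.sT (.sT .leaf .leaf) .leaf) (.sM (808) (.sT (.sT .leaf .leaf) .leaf) (.sT (.sT .leaf .leaf) .leaf)))) (.sM (811) (.sM (810) (.sT (.sT .leaf .leaf) .leaf) (.sT (.sT .leaf .leaf) .leaf)) (.sM (812) (.sT (.sT .leaf .leaf) .leaf) (.sM (813) (.sT (.sT .leaf .leaf) .leaf) (.sT (.sT .leaf .leaf) .leaf))))) (.sM (819) (.sM (816)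 (.sM (815) (.sT (.sT .leaf .leaf) .leaf) (.sT (.sT .leaf .leaf) .leaf)) (.sM (817) (.sT (.sT .leaf .leaf) .leaf) (.sM (818) (.sT (.sT .leaf .leaf) .leaf) (.sT (.sT .leaf .leaf) .leaf)))) (.sM (821) (.sM (820) (.sT (.sT .leaf .leaf) .leaf) (.sT (.sT .leaf .leaf) .leaf)) (.sM (822) (.sT (.sT .leaf .leaf) .leaf) (.sM (823) (.sT (.sT .leaf .leaf) .leaf) (.sT (.sT .leaf .leaf) .leaf))))))

theorem rayC19 : rayChk 210 12 10 Lq rayT19 (Trg.left (chamber 1 1)) (804) 824 1024 = true := by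
  decide +kernel

lemma rayL19 : RayOn Lq (Trg.left (chamber 1 1)) (((804 : ℤ) : ℝ) / ((1024 : ℤ) : ℝ)) (((824 : ℤ) : ℝ) / ((1024 : ℤ) : ℝ)) :=
  rayOn_of_rayChk hLne hLq2 hLq3 rayT19 _ _ _ _ (by decide) (by norm_num) (by norm_num) rayC19

end Vale.Agent.Lib.P154Neg.A4
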