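import Vale.Agent.Lib.P154Neg.A4.Data

/-!
# Parts of the ray inequality
-/

namespace Vale.Agent.Lib.P154Neg.A4

open Vale.Agent.Lib.P154 Vale.Agent.Lib.P154GW Vale.Agent.Lib.P154K Tp

/-- A part of the subdivision for the ray inequality. -/
def rayT20 : RT := (.sM (834) (.sM (829) (.sM (826) (.sM (825) (.sT (.sT .leaf .leaf) .leaf) (.sT (.sT .leaf .leaf) .leaf)) (.sM (827) (.sT (.sT .leaf .leaf) .leaf) (.sM (828) (.sT (.sT .leaf .leaf) .leaf) (.sT (.sT .leaf .leaf) .leaf)))) (.sM (831) (.sM (830) (.sT (.sT .leaf .leaf) .leaf) (.sT (.sT .leaf .leaf) .leaf)) (.sM (832) (.sT (.sT .leaf .leaf) .leaf) (.sM (833) (.sT (.sT .leaf .leaf) .leaf) (.sT (.sT .leaf .leaf) .leaf))))) (.sM (839) (.sM (836) (.sM (835) (.sT (.sT .leaf .leaf) .leaf) (.sT (.sT .leaf .leaf) .leaf)) (.sM (837) (.sT (.sT .leaf .leaf) .leaf) (.sM (838) (.sT (.sT .leaf .leaf) .leaf) (.sT (.sT .leaf .leaf)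 .leaf)))) (.sM (841) (.sM (840) (.sT (.sT .leaf .leaf) .leaf) (.sT (.sT .leaf .leaf) .leaf)) (.sM (842) (.sT (.sT .leaf .leaf) .leaf) (.sM (843) (.sT (.sT .leaf .leaf) .leaf) (.sT (.sT .leaf .leaf) .leaf))))))

theorem rayC20 : rayChk 210 12 10 Lq rayT20 (Trg.left (chamber 1 1)) (824) 844 1024 = true := by
  decide +kernel

lemma rayL20 : RayOn Lq (Trg.left (chamber 1 1)) (((824 : ℤ) : ℝ) / ((1024 : ℤ) : ℝ)) (((844 : ℤ) : ℝ) / ((1024 : ℤ) : ℝ)) :=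
  rayOn_of_rayChk hLne hLq2 hLq3 rayT20 _ _ _ _ (by decide) (by norm_num) (by norm_num) rayC20

/-- A part of the subdivision for the ray inequality. -/
def rayT21 : RT := (.sM (854) (.sM (849) (.sM (846) (.sM (845) (.sT (.sT .leaf .leaf) .leaf) (.sT (.sT .leaf .leaf) .leaf)) (.sM (847) (.sT (.sT .leaf .leaf) .leaf) (.sM (848) (.sT (.sT .leaf .leaf) .leaf) (.sT (.sT .leaf .leaf) .leaf)))) (.sM (851) (.sM (850) (.sT (.sT .leaf .leaf) .leaf) (.sT (.sT .leaf .leaf) .leaf)) (.sM (852) (.sT (.sT .leaf .leaf) .leaf) (.sM (853) (.sT (.sT .leaf .leaf) .leaf) (.sT (.sT .leaf .leaf) .leaf))))) (.sM (859) (.sM (856) (.sM (855) (.sT (.sT .leaf .leaf) .leaf) (.sT (.sT .leaf .leaf) .leaf)) (.sM (857) (.sT (.sT .leaf .leaf) .leaf) (.sM (858) (.sT (.sT .leaf .leaf) .leaf) (.sT (.sT .leaf .leaf) .leaf)))) (.sM (861) (.sM (860) (.sT (.sT .leaf .leaf) .leaf) (.sT (.sT .leaf .leaf) .leaf))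 (.sM (862) (.sT (.sT .leaf .leaf) .leaf) (.sM (863) (.sT (.sT .leaf .leaf) .leaf) (.sT (.sT .leaf .leaf) .leaf))))))

theorem rayC21 : rayChk 210 12 10 Lq rayT21 (Trg.left (chamber 1 1)) (844) 864 1024 = true := by
  decide +kernel

lemma rayL21 : RayOn Lq (Trg.left (chamber 1 1)) (((844 : ℤ) : ℝ) / ((1024 : ℤ) : ℝ)) (((864 : ℤ) : ℝ) / ((1024 : ℤ) : ℝ)) :=
  rayOn_of_rayChk hLne hLq2 hLq3 rayT21 _ _ _ _ (by decide) (by norm_num) (by norm_num) rayC21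

/-- A part of the subdivision for the ray inequality. -/
def rayT22 : RT := (.sM (874) (.sM (869) (.sM (866) (.sM (865) (.sT (.sT .leaf .leaf) .leaf) (.sT (.sT .leaf .leaf) .leaf)) (.sM (867) (.sT (.sT .leaf .leaf) .leaf) (.sM (868) (.sT (.sT .leaf .leaf) .leaf) (.sT (.sT .leaf .leaf) .leaf)))) (.sM (871) (.sM (870) (.sT (.sT .leaf .leaf) .leaf) (.sT (.sT .leaf .leaf) .leaf)) (.sM (872) (.sT (.sT .leaf .leaf) .leaf) (.sM (873) (.sT (.sT .leaf .leaf) .leaf) (.sT (.sT .leaf .leaf) .leaf))))) (.sM (879) (.sM (876) (.sM (875) (.sT (.sT .leaf .leaf) .leaf) (.sT (.sT .leaf .leaf) .leaf)) (.sM (877) (.sT (.sT .leaf .leaf) .leaf) (.sM (878) (.sT (.sT .leaf .leaf) .leaf) (.sT (.sT .leaf .leaf) .leaf)))) (.sM (881) (.sM (880) (.sT (.sT .leaf .leaf) .leaf) (.sT (.sT .leaf .leaf) .leaf)) (.sM (882) (.sT (.sT .leaf .leaf) .leaf) (.sM (883) (.sT (.sT .leaf .leaf) .leaf) (.sT (.sT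 .leaf .leaf) .leaf))))))

theorem rayC22 : rayChk 210 12 10 Lq rayT22 (Trg.left (chamber 1 1)) (864) 884 1024 = true := by
  decide +kernel

lemma rayL22 : RayOn Lq (Trg.left (chamber 1 1)) (((864 : ℤ) : ℝ) / ((1024 : ℤ) : ℝ)) (((884 : ℤ) : ℝ) / ((1024 : ℤ) : ℝ)) :=
  rayOn_of_rayChk hLne hLq2 hLq3 rayT22 _ _ _ _ (by decide) (by norm_num) (by norm_num) rayC22

/-- A part of the subdivision for the ray inequality. -/
def rayT23 : RT := (.sM (894) (.sM (889) (.sM (886) (.sM (885) (.sT (.sT .leaf .leaf) .leaf) (.sT (.sT .leaf .leaf) .leaf)) (.sM (887) (.sT (.sT .leaf .leaf) .leaf) (.sM (888) (.sT (.sT .leaf .leaf) .leaf) (.sT (.sT .leaf .leaf) .leaf)))) (.sM (891) (.sM (890) (.sT (.sT .leaf .leaf) .leaf) (.sT (.sT .leaf .leaf) .leaf)) (.sM (892) (.sT (.sT .leaf .leaf) .leaf) (.sM (893) (.sT (.sT .leaf .leaf) .leaf) (.sT (.sT .leaf .leaf) .leaf))))) (.sM (899) (.sM (896)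 (.sM (895) (.sT (.sT .leaf .leaf) .leaf) (.sT (.sT .leaf .leaf) .leaf)) (.sM (897) (.sT (.sT .leaf .leaf) .leaf) (.sM (898) (.sT (.sT .leaf .leaf) .leaf) (.sT (.sT .leaf .leaf) .leaf)))) (.sM (901) (.sM (900) (.sT (.sT .leaf .leaf) .leaf) (.sT (.sT .leaf .leaf) .leaf)) (.sM (902) (.sT (.sT .leaf .leaf) .leaf) (.sM (903) (.sT (.sT .leaf .leaf) .leaf) (.sT (.sT .leaf .leaf) .leaf))))))

theorem rayC23 : rayChk 210 12 10 Lq rayT23 (Trg.left (chamber 1 1)) (884) 904 1024 = true := by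
  decide +kernel

lemma rayL23 : RayOn Lq (Trg.left (chamber 1 1)) (((884 : ℤ) : ℝ) / ((1024 : ℤ) : ℝ)) (((904 : ℤ) : ℝ) / ((1024 : ℤ) : ℝ)) :=
  rayOn_of_rayChk hLne hLq2 hLq3 rayT23 _ _ _ _ (by decide) (by norm_num) (by norm_num) rayC23

end Vale.Agent.Lib.P154Neg.A4
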