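import Vale.Agent.Lib.P154Neg.A4.Data

/-!
# Parts of the ray inequality
-/

namespace Vale.Agent.Lib.P154Neg.A4

open Vale.Agent.Lib.P154 Vale.Agent.Lib.P154GW Vale.Agent.Lib.P154K Tp

/-- A part of the subdivision for the ray inequality. -/
def rayT24 : RT := (.sM (914) (.sM (909) (.sM (906) (.sM (905) (.sT (.sT .leaf .leaf) .leaf) (.sT (.sT .leaf .leaf) .leaf)) (.sM (907) (.sT (.sT .leaf .leaf) .leaf) (.sM (908) (.sT (.sT .leaf .leaf) .leaf) (.sT (.sT .leaf .leaf) .leaf)))) (.sM (911) (.sM (910) (.sT (.sT .leaf .leaf) .leaf) (.sT (.sT .leaf .leaf) .leaf)) (.sM (912) (.sT (.sT .leaf .leaf) .leaf) (.sM (913) (.sT (.sT .leaf .leaf) .leaf) (.sT (.sT .leaf .leaf) .leaf))))) (.sM (919) (.sM (916) (.sM (915) (.sT (.sT .leaf .leaf) .leaf) (.sT (.sT .leaf .leaf) .leaf)) (.sM (917) (.sT (.sT .leaf .leaf) .leaf) (.sM (918) (.sT (.sT .leaf .leaf) .leaf) (.sT (.sT .leaf .leaf)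 .leaf)))) (.sM (921) (.sM (920) (.sT (.sT .leaf .leaf) .leaf) (.sT (.sT .leaf .leaf) .leaf)) (.sM (922) (.sT (.sT .leaf .leaf) .leaf) (.sM (923) (.sT (.sT .leaf .leaf) .leaf) (.sT (.sT .leaf .leaf) .leaf))))))

theorem rayC24 : rayChk 210 12 10 Lq rayT24 (Trg.left (chamber 1 1)) (904) 924 1024 = true := by
  decide +kernel

lemma rayL24 : RayOn Lq (Trg.left (chamber 1 1)) (((904 : ℤ) : ℝ) / ((1024 : ℤ) : ℝ)) (((924 : ℤ) : ℝ) / ((1024 : ℤ) : ℝ)) :=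
  rayOn_of_rayChk hLne hLq2 hLq3 rayT24 _ _ _ _ (by decide) (by norm_num) (by norm_num) rayC24

/-- A part of the subdivision for the ray inequality. -/
def rayT25 : RT := (.sM (934) (.sM (929) (.sM (926) (.sM (925) (.sT (.sT .leaf .leaf) .leaf) (.sT (.sT .leaf .leaf) .leaf)) (.sM (927) (.sT (.sT .leaf .leaf) .leaf) (.sM (928) (.sT (.sT .leaf .leaf) .leaf) (.sT (.sT .leaf .leaf) .leaf)))) (.sM (931) (.sM (930) (.sT (.sT .leaf .leaf) .leaf) (.sT (.sT .leaf .leaf) .leaf)) (.sM (932) (.sT (.sT .leaf .leaf) .leaf) (.sM (933) (.sT (.sT .leaf .leaf) .leaf) (.sT (.sT .leaf .leaf) .leaf))))) (.sM (939) (.sM (936) (.sM (935) (.sT (.sT .leaf .leaf) .leaf) (.sT (.sT .leaf .leaf) .leaf)) (.sM (937) (.sT (.sT .leaf .leaf) .leaf) (.sM (938) (.sT (.sT .leaf .leaf) .leaf) (.sT (.sT .leaf .leaf) .leaf)))) (.sM (941) (.sM (940) (.sT (.sT .leaf .leaf) .leaf) (.sT (.sT .leaf .leaf) .leaf))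 (.sM (942) (.sT (.sT .leaf .leaf) .leaf) (.sM (943) (.sT (.sT .leaf .leaf) .leaf) (.sT (.sT .leaf .leaf) .leaf))))))

theorem rayC25 : rayChk 210 12 10 Lq rayT25 (Trg.left (chamber 1 1)) (924) 944 1024 = true := by
  decide +kernel

lemma rayL25 : RayOn Lq (Trg.left (chamber 1 1)) (((924 : ℤ) : ℝ) / ((1024 : ℤ) : ℝ)) (((944 : ℤ) : ℝ) / ((1024 : ℤ) : ℝ)) :=
  rayOn_of_rayChk hLne hLq2 hLq3 rayT25 _ _ _ _ (by decide) (by norm_num) (by norm_num) rayC25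

/-- A part of the subdivision for the ray inequality. -/
def rayT26 : RT := (.sM (954) (.sM (949) (.sM (946) (.sM (945) (.sT (.sT .leaf .leaf) .leaf) (.sT (.sT .leaf .leaf) .leaf)) (.sM (947) (.sT (.sT .leaf .leaf) .leaf) (.sM (948) (.sT (.sT .leaf .leaf) .leaf) (.sT (.sT .leaf .leaf) .leaf)))) (.sM (951) (.sM (950) (.sT (.sT .leaf .leaf) .leaf) (.sT (.sT .leaf .leaf) .leaf)) (.sM (952) (.sT (.sT .leaf .leaf) .leaf) (.sM (953) (.sT (.sT .leaf .leaf) .leaf) (.sT (.sT .leaf .leaf) .leaf))))) (.sM (959) (.sM (956) (.sM (955) (.sT (.sT .leaf .leaf) .leaf) (.sT (.sT .leaf .leaf) .leaf)) (.sM (957) (.sT (.sT .leaf .leaf) .leaf) (.sM (958) (.sT (.sT .leaf .leaf) .leaf) (.sT (.sT .leaf .leaf) .leaf)))) (.sM (961) (.sM (960) (.sT (.sT .leaf .leaf) .leaf) (.sT (.sT .leaf .leaf) .leaf)) (.sM (962) (.sT (.sT .leaf .leaf) .leaf) (.sM (963) (.sT (.sT .leaf .leaf) .leaf) (.sT (.sT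 .leaf .leaf) .leaf))))))

theorem rayC26 : rayChk 210 12 10 Lq rayT26 (Trg.left (chamber 1 1)) (944) 964 1024 = true := by
  decide +kernel

lemma rayL26 : RayOn Lq (Trg.left (chamber 1 1)) (((944 : ℤ) : ℝ) / ((1024 : ℤ) : ℝ)) (((964 : ℤ) : ℝ) / ((1024 : ℤ) : ℝ)) :=
  rayOn_of_rayChk hLne hLq2 hLq3 rayT26 _ _ _ _ (by decide) (by norm_num) (by norm_num) rayC26

/-- A part of the subdivision for the ray inequality. -/
def rayT27 : RT := (.sM (974) (.sM (969) (.sM (966) (.sM (965) (.sT (.sT .leaf .leaf) .leaf) (.sT (.sT .leaf .leaf) .leaf)) (.sM (967) (.sT (.sT .leaf .leaf) .leaf) (.sM (968) (.sT (.sT .leaf .leaf) .leaf) (.sT (.sT .leaf .leaf) .leaf)))) (.sM (971) (.sM (970) (.sT (.sT .leaf .leaf) .leaf) (.sT (.sT .leaf .leaf) .leaf)) (.sM (972) (.sT (.sT .leaf .leaf) .leaf) (.sM (973) (.sT (.sT .leaf .leaf) .leaf) (.sT (.sT .leaf .leaf) .leaf))))) (.sM (979) (.sM (976)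 (.sM (975) (.sT (.sT .leaf .leaf) .leaf) (.sT (.sT .leaf .leaf) .leaf)) (.sM (977) (.sT (.sT .leaf .leaf) .leaf) (.sM (978) (.sT (.sT .leaf .leaf) .leaf) (.sT (.sT .leaf .leaf) .leaf)))) (.sM (981) (.sM (980) (.sT (.sT .leaf .leaf) .leaf) (.sT (.sT .leaf .leaf) .leaf)) (.sM (982) (.sT (.sT .leaf .leaf) .leaf) (.sM (983) (.sT (.sT .leaf .leaf) .leaf) (.sT (.sT .leaf .leaf) .leaf))))))

theorem rayC27 : rayChk 210 12 10 Lq rayT27 (Trg.left (chamber 1 1)) (964) 984 1024 = true := by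
  decide +kernel

lemma rayL27 : RayOn Lq (Trg.left (chamber 1 1)) (((964 : ℤ) : ℝ) / ((1024 : ℤ) : ℝ)) (((984 : ℤ) : ℝ) / ((1024 : ℤ) : ℝ)) :=
  rayOn_of_rayChk hLne hLq2 hLq3 rayT27 _ _ _ _ (by decide) (by norm_num) (by norm_num) rayC27

end Vale.Agent.Lib.P154Neg.A4
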