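import Vale.Agent.Lib.P154Neg.A4.Data

/-!
# Parts of the ray inequality
-/

namespace Vale.Agent.Lib.P154Neg.A4

open Vale.Agent.Lib.P154 Vale.Agent.Lib.P154GW Vale.Agent.Lib.P154K Tp

/-- A part of the subdivision for the ray inequality. -/
def rayT28 : RT := (.sM (994) (.sM (989) (.sM (986) (.sM (985) (.sT (.sT .leaf .leaf) .leaf) (.sT (.sT .leaf .leaf) .leaf)) (.sM (987) (.sT (.sT .leaf .leaf) .leaf) (.sM (988) (.sT (.sT .leaf .leaf) .leaf) (.sT (.sT .leaf .leaf) .leaf)))) (.sM (991) (.sM (990) (.sT (.sT .leaf .leaf) .leaf) (.sT (.sT .leaf .leaf) .leaf)) (.sM (992) (.sT (.sT .leaf .leaf) .leaf) (.sM (993) (.sT (.sT .leaf .leaf) .leaf) (.sT (.sT .leaf .leaf) .leaf))))) (.sM (999) (.sM (996) (.sM (995) (.sT (.sT .leaf .leaf) .leaf) (.sT (.sT .leaf .leaf) .leaf)) (.sM (997) (.sT (.sT .leaf .leaf) .leaf) (.sM (998) (.sT (.sT .leaf .leaf) .leaf) (.sT (.sT .leaf .leaf) .leaf))))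 (.sM (1001) (.sM (1000) (.sT (.sT .leaf .leaf) .leaf) (.sT (.sT .leaf .leaf) .leaf)) (.sM (1002) (.sT (.sT .leaf .leaf) .leaf) (.sM (1003) (.sT (.sT .leaf .leaf) .leaf) (.sT (.sT .leaf .leaf) .leaf))))))

theorem rayC28 : rayChk 210 12 10 Lq rayT28 (Trg.left (chamber 1 1)) (984) 1004 1024 = true := by
  decide +kernel

lemma rayL28 : RayOn Lq (Trg.left (chamber 1 1)) (((984 : ℤ) : ℝ) / ((1024 : ℤ) : ℝ)) (((1004 : ℤ) : ℝ) / ((1024 : ℤ) : ℝ)) :=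
  rayOn_of_rayChk hLne hLq2 hLq3 rayT28 _ _ _ _ (by decide) (by norm_num) (by norm_num) rayC28

/-- A part of the subdivision for the ray inequality. -/
def rayT29 : RT := (.sM (1014) (.sM (1009) (.sM (1006) (.sM (1005) (.sT (.sT .leaf .leaf) .leaf) (.sT (.sT .leaf .leaf) .leaf)) (.sM (1007) (.sT (.sT .leaf .leaf) .leaf) (.sM (1008) (.sT (.sT .leaf .leaf) .leaf) (.sT (.sT .leaf .leaf) .leaf)))) (.sM (1011) (.sM (1010) (.sT (.sT .leaf .leaf) .leaf) (.sT (.sT .leaf .leaf) .leaf)) (.sM (1012) (.sT (.sT .leaf .leaf) .leaf) (.sM (1013) (.sT (.sT .leaf .leaf) .leaf) (.sT (.sT .leaf .leaf) .leaf))))) (.sM (1019) (.sM (1016) (.sM (1015) (.sT (.sT .leaf .leaf) .leaf) (.sT (.sT .leaf .leaf) .leaf)) (.sM (1017) (.sT (.sT .leaf .leaf) .leaf) (.sM (1018) (.sT (.sT .leaf .leaf) .leaf) (.sT (.sT .leaf .leaf) .leaf)))) (.sM (1021) (.sM (1020) (.sT (.sT .leaf .leaf) .leaf) (.sT (.sT .leaf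 .leaf) .leaf)) (.sM (1022) (.sT (.sT .leaf .leaf) .leaf) (.sM (1023) (.sT (.sT .leaf .leaf) .leaf) (.sT (.sT .leaf .leaf) .leaf))))))

theorem rayC29 : rayChk 210 12 10 Lq rayT29 (Trg.left (chamber 1 1)) (1004) 1024 1024 = true := by
  decide +kernel

lemma rayL29 : RayOn Lq (Trg.left (chamber 1 1)) (((1004 : ℤ) : ℝ) / ((1024 : ℤ) : ℝ)) (((1024 : ℤ) : ℝ) / ((1024 : ℤ) : ℝ)) :=
  rayOn_of_rayChk hLne hLq2 hLq3 rayT29 _ _ _ _ (by decide) (by norm_num) (by norm_num) rayC29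

/-- A part of the subdivision for the ray inequality. -/
def rayT30 : RT := (.sT .leaf (.sT .leaf .leaf))

theorem rayC30 : rayChk 211 12 10 Lq rayT30 (Trg.right (chamber 1 1)) (-256) 1024 1024 = true := by
  decide +kernel

lemma rayL30 : RayOn Lq (Trg.right (chamber 1 1)) (((-256 : ℤ) : ℝ) / ((1024 : ℤ) : ℝ)) (((1024 : ℤ) : ℝ) / ((1024 : ℤ) : ℝ)) :=
  rayOn_of_rayChk hLne hLq2 hLq3 rayT30 _ _ _ _ (by decide) (by norm_num) (by norm_num) rayC30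

end Vale.Agent.Lib.P154Neg.A4
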